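import Crest.Agent.N325.Op.Net

/-!
# Row 325 (helper19): surgery programs on the interior point layer and their specifications
-/

set_option autoImplicit false
open Finset

namespace Crest.Agent.N325.Op

open Crest.Agent.N325.Ip Crest.Agent.N325.Tw

section prog
variable {T : Type} (run : Cmd × T → R (T × Rep × Bool)) (P : Pm)

/-- the deletion half of an operation -/
def opD (o : Ox) (s : St T) : R (St T) :=
  if o.2.1 = true then do
    let u ← del run P s o.1
    pure u.1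
  else pure s
/-- one operation -/
def op1 (o : Ox) (s : St T) : R (St T) := do
  let s' ← opD run P o s
  Option.casesOn o.2.2 (pure s') fun u => ins run P s' o.1 u.1 u.2
/-- a list of operations -/
def ops (l : List Ox) (s : St T) : R (St T) := foldL (op1 run P) l s
/-- move the flow of `p.1` by `p.2` -/
def mv (p : ℕ × ℤ) (s : St T) : R (St T) := do
  let u ← del run P s p.1
  let v ← int (u.2 + p.2)
  ins run P u.1 p.1 (s.arc.get p.1) v
/-- a list of moves -/
def mvs (l : List (ℕ × ℤ)) (s : St T) : R (St T) := foldL (mv run P) l s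
/-- one exact value, stored in an array -/
def get1 (e : ℕ) (u : St T × Arr ℤ) : R (St T × Arr ℤ) := do
  let r ← get run P u.1 e
  pure (r.1, u.2.set e r.2)
/-- exact values of a list of arcs -/
def gets (l : List ℕ) (u : St T × Arr ℤ) : R (St T × Arr ℤ) := foldL (get1 run P) l u
end prog

/-- bookkeeping of a surgery from `(s, N)` to `(s', N')` of time `t`, amortised time `A` -/
structure Up {T : Type} (k : IC) (Φ : St T → ℝ) (s s' : St T) (N N' : Net) (new : List ℕ) (t : ℕ)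
    (A : ℝ) : Prop where
  log : s'.log = new ++ s.log
  rf : ∀ e, e ∉ new → s'.rf.get e = s.rf.get e
  chg : ∀ e ∈ N'.E, e ∉ new → e ∈ N.E ∧ N'.arc e = N.arc e ∧ N'.X e = N.X e
  fresh : ∀ e ∈ new, e ∈ N'.E → s'.rf.get e = N'.X e
  time : (t : ℝ) + Φ s' + k.cl * new.length ≤ Φ s + A

variable {T : Type} {g : Gl} {run : Cmd × T → R (T × Rep × Bool)} {P : Pm} {B : Bn} {k : IC}
  {Sh : T → Prop} {I : St T → Net → Prop} {Φ : St T → ℝ} {s s' s'' : St T} {N N' N'' : Net}
  {n n' : List ℕ} {t t' : ℕ} {A A' : ℝ}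

theorem Up.refl : Up k Φ s s N N [] 0 0 :=
  ⟨rfl, fun _ _ => rfl, fun _ h _ => ⟨h, rfl, rfl⟩, fun _ h => (nomatch h), by simp⟩
theorem Up.mono (h : Up k Φ s s' N N' n t A) (a : (t' : ℝ) + A ≤ t + A') :
    Up k Φ s s' N N' n t' A' := ⟨h.log, h.rf, h.chg, h.fresh, by linarith [h.time]⟩
theorem Up.trans (h : Up k Φ s s' N N' n t A) (h' : Up k Φ s' s'' N' N'' n' t' A') :
    Up k Φ s s'' N N'' (n' ++ n) (t + t') (A + A') := by
  refine ⟨by rw [h'.log, h.log, List.append_assoc], fun e c => ?_, fun e he c => ?_,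
    fun e c he => ?_, ?_⟩
  · rw [List.mem_append, not_or] at c; rw [h'.rf e c.1, h.rf e c.2]
  · rw [List.mem_append, not_or] at c
    obtain ⟨a, b, d⟩ := h'.chg e he c.1
    obtain ⟨a', b', d'⟩ := h.chg e a c.2
    exact ⟨a', b.trans b', d.trans d'⟩
  · by_cases c' : e ∈ n'
    · exact h'.fresh e c' he
    · obtain ⟨a, -, d⟩ := h'.chg e he c'
      rw [h'.rf e c', d]
      exact h.fresh e ((List.mem_append.1 c).resolve_left c') a
  · have := h.time; have := h'.time
    rw [List.length_append]; push_cast; linarith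
theorem Up.phi (h : Up k Φ s s' N N' n t A) : Φ s' ≤ Φ s + A := by
  have := h.time
  have : (0 : ℝ) ≤ k.cl * n.length := by positivity
  have : (0 : ℝ) ≤ t := by positivity
  linarith

section spec
variable (S : IpSpec g run P B k Sh I Φ)
include S

theorem sp_ins (h : I s N) (hF : Φ s ≤ B.F) {e : ℕ} {A : Arc} {x : ℤ} (he : e ∉ N.E)
    (hA : B.arc e A) (hx : Dom B A x) : Sp g (ins run P s e A x) fun s' t =>
      I s' (N.ins e A x) ∧ ∃ n, e ∈ n ∧ Up k Φ s s' N (N.ins e A x) n t k.AU :=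
  (S.ins e A x h hF he hA hx).mono fun s' t ⟨a, n, b, c, d⟩ => ⟨a, n, b, d.1, d.2.2.1,
    fun i hi ni => by
      have ne : i ≠ e := fun q => ni (q ▸ b)
      exact ⟨(mem_insert.1 hi).resolve_left ne, Function.update_of_ne ne .., 
        Function.update_of_ne ne ..⟩, fun i hi _ => c i hi, d.2.2.2⟩

theorem sp_del (h : I s N) (hF : Φ s ≤ B.F) {e : ℕ} (he : e ∈ N.E) :
    Sp g (del run P s e) fun r t =>
      I r.1 (N.del e) ∧ r.2 = N.X e ∧ ∃ n, Up k Φ s r.1 N (N.del e) n t k.AU :=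
  (S.del e h hF he).mono fun _ _ ⟨a, b, n, c, d⟩ => ⟨a, b, n, d.1, d.2.2.1,
    fun _ hi _ => ⟨mem_of_mem_erase hi, rfl, rfl⟩, fun i hi _ => c i hi, d.2.2.2⟩

theorem sp_get (h : I s N) (hF : Φ s + k.AU ≤ B.F) {e : ℕ} (he : e ∈ N.E) :
    Sp g (get run P s e) fun r t =>
      I r.1 N ∧ r.2 = N.X e ∧ ∃ n, e ∈ n ∧ Up k Φ s r.1 N N n t (2 * k.AU) :=
  (S.get e h hF he).mono fun _ _ ⟨a, b, n, m, c, d⟩ => ⟨a, b, n, m, d.1, d.2.2.1,
    fun _ hi _ => ⟨hi, rfl, rfl⟩, fun i hi _ => c i hi, d.2.2.2⟩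

theorem sp_op1 (h : I s N) (hF : Φ s + k.AU ≤ B.F) {o : Ox} (ho : Ok B N o) :
    Sp g (op1 run P o s) fun s' t =>
      I s' (app N o) ∧ ∃ n, Up k Φ s s' N (app N o) n t (2 * k.AU) := by
  have h0 : (0 : ℝ) ≤ k.AU := by positivity
  have hD : Sp g (opD run P o s) fun s' t =>
      I s' (N.del o.1) ∧ ∃ n, Up k Φ s s' N (N.del o.1) n t k.AU := by
    unfold opD
    split_ifs with c
    · exact (sp_del S h (by linarith) (ho.1.1 c)).bind fun u t ⟨a, _, n, b⟩ => ⟨a, n, b⟩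
    · rw [del_of_notMem fun q => c (ho.1.2 q)]
      exact ⟨h, [], Up.refl.mono (by simp)⟩
  refine hD.bind fun s1 t ⟨a, n, b⟩ => ?_
  obtain ⟨e, p, _ | ⟨A, x⟩⟩ := o
  · exact ⟨a, n, b.mono (by simp; linarith)⟩
  · obtain ⟨c, d⟩ := ho.2 _ rfl
    exact (sp_ins S a (by linarith [b.phi]) (by simp) c d).mono fun s2 t' ⟨a', n', _, b'⟩ =>
      ⟨a', _, (b.trans b').mono (by linarith)⟩

/-- **a list of operations** -/
theorem sp_ops (h : I s N) {l : List Ox} (hF : Φ s + 2 * k.AU * l.length ≤ B.F)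
    (ho : Oks B N l) : Sp g (ops run P l s) fun s' t =>
      I s' (apps N l) ∧ ∃ n, Up k Φ s s' N (apps N l) n t ((2 * k.AU + 1) * l.length + 1) := by
  have h0 : (0 : ℝ) ≤ k.AU := by positivity
  refine (sp_foldL (fun l' s' t => ∃ N', I s' N' ∧ Oks B N' l' ∧ apps N' l' = apps N l ∧
      l'.length ≤ l.length ∧ Φ s' + 2 * k.AU * l'.length ≤ B.F ∧
      ∃ n, Up k Φ s s' N N' n t ((2 * k.AU + 1) * (l.length - l'.length)))
    (fun o l' s1 t ⟨N', a, b, c, d, f, n, u⟩ => ?_) (t := 0)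
    ⟨N, h, ho, rfl, le_rfl, hF, [], Up.refl.mono (by simp)⟩).mono ?_
  · simp only [List.length_cons, Nat.cast_add, Nat.cast_one] at d f u
    have : (0 : ℝ) ≤ k.AU * l'.length := by positivity
    refine (sp_op1 S a (by linarith) b.1).mono fun s2 t' ⟨a', n', u'⟩ =>
      ⟨_, a', b.2, c, by omega, by linarith [u'.phi], _, (u.trans u').mono ?_⟩
    push_cast; linarith
  · rintro s1 _ ⟨t, rfl, N', a, -, c, -, -, n, u⟩
    rw [apps_nil] at c; subst c
    exact ⟨a, n, u.mono (by simp; linarith)⟩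

theorem sp_mv (hX : B.Mu ≤ g.X) (h : I s N) (hF : Φ s + k.AU ≤ B.F) {p : ℕ × ℤ} (he : p.1 ∈ N.E)
    (hd : Dom B (N.arc p.1) (N.X p.1 + p.2)) : Sp g (mv run P p s) fun s' t =>
      I s' (mvN N p.1 p.2) ∧ ∃ n, p.1 ∈ n ∧ Up k Φ s s' N (mvN N p.1 p.2) n t (2 * k.AU) := by
  have h0 : (0 : ℝ) ≤ k.AU := by positivity
  obtain ⟨ea, hA, -⟩ := S.view h _ he
  refine (sp_del S h (by linarith) he).bind fun u t ⟨a, b, n, c⟩ => ?_
  rw [sp_bind, sp_int, b, ea]
  refine ⟨?_, (sp_ins S a (by linarith [c.phi]) (by simp) hA hd).mono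
    fun s2 t' ⟨a', n', m, b'⟩ => ⟨a', _, List.mem_append_left _ m, (c.trans b').mono ?_⟩⟩
  · obtain ⟨-, -, -, -, -, -, -, q1, q2⟩ := hA
    obtain ⟨q3, q4⟩ := hd
    omega
  · push_cast; linarith

/-- the network after a list of moves -/
def mvsN (N : Net) (l : List (ℕ × ℤ)) : Net := l.foldl (fun N p => mvN N p.1 p.2) N
/-- admissible moves -/
def MOks (B : Bn) : Net → List (ℕ × ℤ) → Prop
  | _, [] => True
  | N, p :: l => p.1 ∈ N.E ∧ Dom B (N.arc p.1) (N.X p.1 + p.2) ∧ MOks B (mvN N p.1 p.2) l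

theorem sp_mvs (hX : B.Mu ≤ g.X) (h : I s N) {l : List (ℕ × ℤ)}
    (hF : Φ s + 2 * k.AU * l.length ≤ B.F) (ho : MOks B N l) : Sp g (mvs run P l s) fun s' t =>
      I s' (mvsN N l) ∧ ∃ n, Up k Φ s s' N (mvsN N l) n t ((2 * k.AU + 1) * l.length + 1) := by
  have h0 : (0 : ℝ) ≤ k.AU := by positivity
  refine (sp_foldL (fun l' s' t => ∃ N', I s' N' ∧ MOks B N' l' ∧ mvsN N' l' = mvsN N l ∧
      l'.length ≤ l.length ∧ Φ s' + 2 * k.AU * l'.length ≤ B.F ∧
      ∃ n, Up k Φ s s' N N' n t ((2 * k.AU + 1) * (l.length - l'.length)))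
    (fun o l' s1 t ⟨N', a, b, c, d, f, n, u⟩ => ?_) (t := 0)
    ⟨N, h, ho, rfl, le_rfl, hF, [], Up.refl.mono (by simp)⟩).mono ?_
  · simp only [List.length_cons, Nat.cast_add, Nat.cast_one] at d f u
    have : (0 : ℝ) ≤ k.AU * l'.length := by positivity
    refine (sp_mv S hX a (by linarith) b.1 b.2.1).mono fun s2 t' ⟨a', n', _, u'⟩ =>
      ⟨_, a', b.2.2, c, by omega, by linarith [u'.phi], _, (u.trans u').mono ?_⟩
    push_cast; linarith
  · rintro s1 _ ⟨t, rfl, N', a, -, c, -, -, n, u⟩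
    change N' = _ at c; subst c
    exact ⟨a, n, u.mono (by simp; linarith)⟩

/-- **exact values** -/
theorem sp_gets (h : I s N) {l : List ℕ} (a0 : Arr ℤ) (hF : Φ s + 2 * k.AU * l.length ≤ B.F)
    (hl : ∀ e ∈ l, e ∈ N.E) : Sp g (gets run P l (s, a0)) fun r t =>
      I r.1 N ∧ (∀ e, r.2.get e = if e ∈ l then N.X e else a0.get e) ∧
      ∃ n, (∀ e ∈ l, e ∈ n) ∧ Up k Φ s r.1 N N n t ((2 * k.AU + 1) * l.length + 1) := by
  have h0 : (0 : ℝ) ≤ k.AU := by positivity
  refine (sp_foldL (fun l' u t => ∃ l0, l = l0 ++ l' ∧ I u.1 N ∧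
      (∀ e, u.2.get e = if e ∈ l0 then N.X e else a0.get e) ∧
      ∃ n, (∀ e ∈ l0, e ∈ n) ∧ Up k Φ s u.1 N N n t ((2 * k.AU + 1) * l0.length) ∧
        Φ u.1 ≤ Φ s + 2 * k.AU * l0.length)
    (fun e l' u t ⟨l0, q, a, b, n, m, c, f⟩ => ?x) (t := 0)
    ⟨[], rfl, h, by simp, [], by simp, Up.refl.mono (by simp), by simp⟩).mono ?y
  case x =>
    have hq : (l.length : ℝ) = l0.length + (l'.length + 1) := by rw [q]; simp
    have : (0 : ℝ) ≤ k.AU * l'.length := by positivity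
    refine (sp_get S a (by rw [hq] at hF; linarith) (hl e (by simp [q]))).bind
      fun r t' ⟨a', b', n', m', c'⟩ => ⟨l0 ++ [e], by simp [q], a', fun i => ?_, _, fun i hi => ?_,
        (c.trans c').mono ?_, ?_⟩
    · simp only [Arr.get_set, b, b', List.mem_append, List.mem_singleton]
      by_cases z : i = e <;> simp [z]
    · rcases List.mem_append.1 hi with z | z
      · exact List.mem_append_right _ (m i z)
      · exact List.mem_append_left _ (List.mem_singleton.1 z ▸ m')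
    · simp; linarith
    · have := c'.phi; simp; linarith
  case y =>
    rintro r _ ⟨t, rfl, l0, q, a, b, n, m, c, -⟩
    rw [List.append_nil] at q; subst q
    exact ⟨a, b, n, m, c.mono (by simp; linarith)⟩

end spec

theorem mvsN_E {l : List (ℕ × ℤ)} (h : ∀ p ∈ l, p.1 ∈ N.E) : (mvsN N l).E = N.E := by
  induction l generalizing N with
  | nil => rfl
  | cons p l ih =>
    have e := mvN_E (d := p.2) (h p List.mem_cons_self)
    exact (ih fun q c => e ▸ h q (List.mem_cons_of_mem _ c)).trans e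
@[simp] theorem mvsN_arc {l : List (ℕ × ℤ)} : (mvsN N l).arc = N.arc := by
  induction l generalizing N with
  | nil => rfl
  | cons p l ih => exact ih.trans mvN_arc
theorem mvsN_X {l : List (ℕ × ℤ)} (e : ℕ) :
    (mvsN N l).X e = N.X e + (l.map fun p => if p.1 = e then p.2 else 0).sum := by
  induction l generalizing N with
  | nil => simp [mvsN]
  | cons p l ih =>
    refine (ih (N := mvN N p.1 p.2)).trans ?_
    rw [mvN_X, List.map_cons, List.sum_cons, Function.update_apply]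
    by_cases c : p.1 = e
    · simp [c, add_assoc]
    · simp [c, Ne.symm c]
theorem dv_mvsN {l : List (ℕ × ℤ)} (h : ∀ p ∈ l, p.1 ∈ N.E) (v : ℕ) :
    dv (mvsN N l) v = dv N v + (l.map fun p => ct v (N.arc p.1) p.2).sum := by
  induction l generalizing N with
  | nil => simp [mvsN]
  | cons p l ih =>
    have e := mvN_E (d := p.2) (h p List.mem_cons_self)
    refine (ih (N := mvN N p.1 p.2) fun q c => e ▸ h q (List.mem_cons_of_mem _ c)).trans ?_
    rw [dv_mvN (h p List.mem_cons_self), mvN_arc, List.map_cons, List.sum_cons, add_assoc]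

end Crest.Agent.N325.Op
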