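import Crest.Agent.N325.Op.Impl
import Crest.Agent.N325.Lst.ListImpl

/-!
# Row 325 (helper14): generic surgery — read the present arcs of a list, rewrite the arcs of a list
-/

set_option autoImplicit false
open Finset

namespace Crest.Agent.N325.Op

open Crest.Agent.N325.Ip Crest.Agent.N325.Tw

/-- store an arc -/
def arcN (A : Arc) : R Arc := do
  let a ← nat A.a
  let b ← nat A.b
  let p ← nat A.p
  let c1 ← nat A.c1
  let o1 ← nat A.o1
  let c2 ← nat A.c2
  let o2 ← nat A.o2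
  let c3 ← nat A.c3
  let o3 ← nat A.o3
  pure ⟨a, b, p, c1, o1, c2, o2, c3, o3⟩

/-- one step of `ddp` -/
def dd1 (e : ℕ) (u : Arr Bool × List ℕ) : Arr Bool × List ℕ :=
  if u.1.get e = true then u else (u.1.set e true, e :: u.2)

/-- remove duplicates -/
def ddp (L : List ℕ) : R (List ℕ) := do
  let u ← foldP dd1 L (Arr.cst false, [])
  pure u.2

/-- the operation on the id `e`: present now iff `h e`, afterwards iff `h2 e` -/
def oxP (h h2 : ℕ → Bool) (ar : ℕ → Arc) (x : ℕ → ℤ) (e : ℕ) : Ox :=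
  (e, h e, if h2 e = true then some (ar e, x e) else none)

/-- the same, stored -/
def oxR (h h2 : ℕ → Bool) (ar : ℕ → Arc) (x : Arr ℤ) (e : ℕ) : R Ox :=
  if h2 e = true then do
    let A ← arcN (ar e)
    pure (e, h e, some (A, x.get e))
  else pure (e, h e, none)

section prog
variable {T : Type} (run : Cmd × T → R (T × Rep × Bool)) (P : Pm)

/-- exact flows of the present arcs of `L` -/
def grd (h : ℕ → Bool) (L : List ℕ) (u : St T × Arr ℤ) : R (St T × Arr ℤ) := do
  let l ← filterP h L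
  gets run P l u

/-- rewrite the arcs of `L` -/
def gap (h h2 : ℕ → Bool) (ar : ℕ → Arc) (x : Arr ℤ) (L : List ℕ) (s : St T) : R (St T) := do
  let l ← ddp L
  let o ← mapL (oxR h h2 ar x) l
  ops run P o s
end prog

variable {T : Type} {g : Gl} {run : Cmd × T → R (T × Rep × Bool)} {P : Pm} {B : Bn} {k : IC}
  {Sh : T → Prop} {I : St T → Net → Prop} {Φ : St T → ℝ} {s : St T} {N : Net}

/-- all fields are words -/
def Wd (X : ℕ) (A : Arc) : Prop :=
  A.a ≤ X ∧ A.b ≤ X ∧ A.p ≤ X ∧ A.c1 + A.c2 + A.c3 ≤ X ∧ A.o1 ≤ X ∧ A.o2 + A.o3 ≤ X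

theorem sp_arcN {A : Arc} (h : Wd g.X A) : Sp g (arcN A) fun r t => r = A ∧ t ≤ 0 := by
  obtain ⟨a, b, c, d, e, f⟩ := h
  simp only [arcN, sp_bind, sp_nat, sp_pure]
  refine ⟨a, b, c, by omega, e, by omega, by omega, by omega, by omega, by simp⟩

theorem foldl_dd1 (L : List ℕ) (u : Arr Bool × List ℕ) (h : u.2.Nodup)
    (h' : ∀ e, u.1.get e = true ↔ e ∈ u.2) :
    (L.foldl (fun u e => dd1 e u) u).2.Nodup ∧
      (∀ e, e ∈ (L.foldl (fun u e => dd1 e u) u).2 ↔ e ∈ L ∨ e ∈ u.2) ∧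
      (L.foldl (fun u e => dd1 e u) u).2.length ≤ L.length + u.2.length := by
  induction L generalizing u with
  | nil => simp [h]
  | cons a L ih =>
    rw [List.foldl_cons]
    by_cases c : u.1.get a = true
    · have e : dd1 a u = u := if_pos c
      obtain ⟨x, y, z⟩ := ih u h h'
      rw [e]
      refine ⟨x, fun i => (y i).trans ?_, by simp only [List.length_cons]; omega⟩
      have := (h' a).1 c
      simp only [List.mem_cons]
      constructor
      · tauto
      · rintro ((rfl | q) | q) <;> tauto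
    · have e : dd1 a u = (u.1.set a true, a :: u.2) := if_neg c
      obtain ⟨x, y, z⟩ := ih (u.1.set a true, a :: u.2)
        (List.nodup_cons.2 ⟨fun q => c ((h' a).2 q), h⟩) fun i => by
          by_cases q : i = a <;> simp [Arr.get_set, q, h']
      rw [e]
      refine ⟨x, fun i => (y i).trans ?_, by simp only [List.length_cons] at z ⊢; omega⟩
      simp only [List.mem_cons]; tauto

theorem sp_ddp (L : List ℕ) : Sp g (ddp L) fun r t =>
    r.Nodup ∧ (∀ e, e ∈ r ↔ e ∈ L) ∧ r.length ≤ L.length ∧ t = L.length + 1 :=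
  (sp_foldP _ _ _).bind fun u t ⟨e, f⟩ => by
    obtain ⟨x, y, z⟩ := foldl_dd1 L (Arr.cst false, []) List.nodup_nil (by simp)
    subst e
    exact ⟨x, by simpa using y, by simpa using z, by simpa using f⟩

theorem sp_oxR {h h2 : ℕ → Bool} {ar : ℕ → Arc} {x : Arr ℤ} {e : ℕ}
    (hw : h2 e = true → Wd g.X (ar e)) :
    Sp g (oxR h h2 ar x e) fun r t => r = oxP h h2 ar x.get e ∧ t ≤ 0 := by
  unfold oxR oxP
  split_ifs with c
  · exact (sp_arcN (hw c)).bind fun A t ⟨a, b⟩ => ⟨by rw [a], by omega⟩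
  · exact ⟨rfl, le_rfl⟩

/-- the new value on the id `e` -/
def nwv {M : Type} [AddCommGroup M] (f : Arc → ℤ → M) (h2 : ℕ → Bool) (ar : ℕ → Arc) (x : ℕ → ℤ)
    (e : ℕ) : M := if h2 e = true then f (ar e) (x e) else 0

/-- the network `N` with the arcs of `S` rewritten -/
structure Rw (N N' : Net) (S : Finset ℕ) (h2 : ℕ → Bool) (ar : ℕ → Arc) (x : ℕ → ℤ) : Prop where
  off : ∀ e, e ∉ S → (e ∈ N'.E ↔ e ∈ N.E) ∧ N'.arc e = N.arc e ∧ N'.X e = N.X e
  mem : ∀ e ∈ S, e ∈ N'.E ↔ h2 e = true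
  on : ∀ e ∈ S, h2 e = true → N'.arc e = ar e ∧ N'.X e = x e
  tot : ∀ {M : Type} [AddCommGroup M] (f : Arc → ℤ → M),
    tot f N' = tot f N + ∑ e ∈ S, (nwv f h2 ar x e - old f N e)

theorem rw_apps {h h2 : ℕ → Bool} {ar : ℕ → Arc} {x : ℕ → ℤ} {l : List ℕ} (hl : l.Nodup) :
    Rw N (apps N (l.map (oxP h h2 ar x))) l.toFinset h2 ar x := by
  have e1 : (l.map (oxP h h2 ar x)).map Prod.fst = l := by
    rw [List.map_map]; exact List.map_id' l
  have nd : ((l.map (oxP h h2 ar x)).map Prod.fst).Nodup := e1.symm ▸ hl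
  refine ⟨fun e he => apps_ne (by rw [e1]; simpa using he), fun e he => ?_, fun e he c => ?_,
    fun f => ?_⟩
  · have := (apps_mem (N := N) nd (List.mem_map_of_mem (List.mem_toFinset.1 he))).1
    refine this.trans ?_
    simp [oxP]
  · exact (apps_mem (N := N) nd (List.mem_map_of_mem (List.mem_toFinset.1 he))).2 (ar e, x e)
      (if_pos c)
  · rw [tot_apps f nd, List.map_map, List.sum_toFinset _ hl]
    congr 2
    refine List.map_congr_left fun e _ => ?_
    by_cases c : h2 e = true <;> simp [oxP, nwv, c]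

section spec
variable (S : IpSpec g run P B k Sh I Φ)
include S

/-- **read** -/
theorem sp_grd (hI : I s N) {h : ℕ → Bool} {L : List ℕ} (a0 : Arr ℤ)
    (hF : Φ s + 2 * k.AU * L.length ≤ B.F) (hh : ∀ e ∈ L, h e = true ↔ e ∈ N.E) :
    Sp g (grd run P h L (s, a0)) fun r t =>
      I r.1 N ∧ (∀ e, r.2.get e = if e ∈ L ∧ e ∈ N.E then N.X e else a0.get e) ∧
      ∃ n, Up k Φ s r.1 N N n t ((2 * k.AU + 3) * L.length + 3) := by
  have h0 : (0 : ℝ) ≤ k.AU := by positivity
  refine (sp_filterP h L).bind fun l t ⟨e, f⟩ => ?_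
  have hl : (l.length : ℝ) ≤ L.length := by
    exact_mod_cast e ▸ List.length_filter_le _ _
  have hm : ∀ i, i ∈ l ↔ i ∈ L ∧ i ∈ N.E := fun i => by
    rw [e, List.mem_filter]; exact and_congr_right (hh i)
  have := mul_le_mul_of_nonneg_left hl h0
  refine (sp_gets S hI a0 (by linarith) fun i hi => ((hm i).1 hi).2).mono
    fun r t' ⟨a, b, n, _, c⟩ => ⟨a, fun i => by rw [b]; simp only [hm], n, c.mono ?_⟩
  have : (t : ℝ) ≤ 2 * L.length + 2 := by exact_mod_cast f
  push_cast; linarith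

/-- **rewrite** -/
theorem sp_gap (hI : I s N) {h h2 : ℕ → Bool} {ar : ℕ → Arc} {x : Arr ℤ} {L : List ℕ}
    (hF : Φ s + 2 * k.AU * L.length ≤ B.F) (hh : ∀ e ∈ L, h e = true ↔ e ∈ N.E)
    (hw : ∀ e ∈ L, h2 e = true → Wd g.X (ar e) ∧ B.arc e (ar e) ∧ Dom B (ar e) (x.get e)) :
    Sp g (gap run P h h2 ar x L s) fun s' t => ∃ N', I s' N' ∧
      Rw N N' L.toFinset h2 ar x.get ∧
      ∃ n, Up k Φ s s' N N' n t ((2 * k.AU + 4) * L.length + 4) := by
  have h0 : (0 : ℝ) ≤ k.AU := by positivity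
  refine (sp_ddp L).bind fun l t ⟨nd, hm, hl, f⟩ => ?_
  refine (sp_mapL' _ (fun _ => 0) fun e he => sp_oxR fun c => (hw e ((hm e).1 he) c).1).bind
    fun o t' ⟨eo, f'⟩ => ?_
  have hl' : (l.length : ℝ) ≤ L.length := by exact_mod_cast hl
  have := mul_le_mul_of_nonneg_left hl' h0
  have ol : o.length = l.length := by rw [eo, List.length_map]
  have es : l.toFinset = L.toFinset := by ext e; simp [hm]
  refine (sp_ops S hI (l := o) (by rw [ol]; linarith) (oks_of_nodup ?_ ?_)).mono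
    fun s' t'' ⟨a, n, c⟩ => ⟨_, a, ?_, n, c.mono ?_⟩
  · rw [eo, List.map_map]; exact (List.map_id' l).symm ▸ nd
  · intro p hp
    rw [eo] at hp
    obtain ⟨e, he, rfl⟩ := List.mem_map.1 hp
    refine ⟨hh e ((hm e).1 he), fun u hu => ?_⟩
    simp only [oxP] at hu
    split_ifs at hu with c
    cases hu
    exact (hw e ((hm e).1 he) c).2
  · rw [eo, ← es]; exact rw_apps nd
  · have : (t' : ℝ) ≤ 2 * l.length + 2 := by
      have : t' ≤ 2 * l.length + 2 := by simpa using f'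
      exact_mod_cast this
    rw [ol, f]; push_cast; linarith

end spec

/-! ## implementations -/

section impl
variable {α : Type} [Rp α] [Rp T]

@[fun_prop] theorem impl_arcN {A : α → Arc} (hA : Pu false A) : Impl fun a => arcN (A a) := by
  unfold arcN; impl

@[fun_prop] theorem impl_ddp {L : α → List ℕ} (hL : Pu true L) : Impl fun a => ddp (L a) := by
  unfold ddp dd1; impl

theorem impl_oxR {h h2 : α → ℕ → Bool} {ar : α → ℕ → Arc} {x : α → Arr ℤ}
    (hh : Pu false fun p : α × ℕ => h p.1 p.2) (hh2 : Pu false fun p : α × ℕ => h2 p.1 p.2)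
    (ha : Pu false fun p : α × ℕ => ar p.1 p.2) (hx : Pu true x) :
    Impl fun p : α × ℕ => oxR (h p.1) (h2 p.1) (ar p.1) (x p.1) p.2 := by
  have h1 : Pu true fun p : α × ℕ => h p.1 p.2 := hh.bool
  unfold oxR; impl

variable {rn : α → Cmd × T → R (T × Rep × Bool)} {Q : α → Pm}

theorem impl_grd (hr : Impl fun p : α × Cmd × T => rn p.1 p.2) (hP : Pu true Q)
    {h : α → ℕ → Bool} {L : α → List ℕ} {u : α → St T × Arr ℤ}
    (hh : Pu false fun p : α × ℕ => h p.1 p.2) (hL : Pu true L) (hu : Pu true u) :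
    Impl fun a => grd (rn a) (Q a) (h a) (L a) (u a) := by
  have h1 : Pu true fun p : α × ℕ => h p.1 p.2 := hh.bool
  unfold grd; impl

theorem impl_gap (hr : Impl fun p : α × Cmd × T => rn p.1 p.2) (hP : Pu true Q)
    {h h2 : α → ℕ → Bool} {ar : α → ℕ → Arc} {x : α → Arr ℤ} {L : α → List ℕ} {u : α → St T}
    (hh : Pu false fun p : α × ℕ => h p.1 p.2) (hh2 : Pu false fun p : α × ℕ => h2 p.1 p.2)
    (ha : Pu false fun p : α × ℕ => ar p.1 p.2) (hx : Pu true x) (hL : Pu true L)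
    (hu : Pu true u) : Impl fun a => gap (rn a) (Q a) (h a) (h2 a) (ar a) (x a) (L a) (u a) := by
  have hk := impl_oxR hh hh2 ha hx
  obtain ⟨k, e⟩ : ∃ k : α → ℕ → R Ox, ∀ a, oxR (h a) (h2 a) (ar a) (x a) = k a := ⟨_, fun _ => rfl⟩
  unfold gap; simp only [e] at hk ⊢; impl

end impl

end Crest.Agent.N325.Op
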