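import Crest.Agent.N325.Op.Gap

/-!
# Row 325 (helper14): the layer programs are implementable when the tower is a stored closure
-/

set_option autoImplicit false

namespace Crest.Agent.N325.Ip

open Crest.Agent.N325.Tw

/-- the type of the tower closure -/
abbrev Rn (T : Type) : Type := Cmd × T → R (T × Rep × Bool)

variable {α T : Type} [Rp α] [Rp T] {run : α → Cmd × T → R (T × Rep × Bool)}

@[fun_prop] theorem implC_del0 {s : α → St T} {C : α → List ℕ} {e : α → ℕ}
    (hr : Pu true run) (hs : Pu true s) (hC : Pu true C) (he : Pu true e) :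
    Impl fun a => del0 (run a) (s a) (C a) (e a) := by
  have h : Impl fun p : Rn T × (St T) × (List ℕ) × (ℕ) =>
      del0 p.1 p.2.1 p.2.2.1 p.2.2.2 := by
    unfold del0; impl
  exact h.comp (f := fun a => (run a, s a, C a, e a)) (hr.pair (hs.pair (hC.pair (he))))

@[fun_prop] theorem implC_ins0 {P : α → Pm} {s : α → St T} {C : α → List ℕ} {e : α → ℕ} {A : α → Arc} {x : α → ℤ}
    (hr : Pu true run) (hP : Pu true P) (hs : Pu true s) (hC : Pu true C) (he : Pu true e) (hA : Pu true A) (hx : Pu true x) :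
    Impl fun a => ins0 (run a) (P a) (s a) (C a) (e a) (A a) (x a) := by
  have h : Impl fun p : Rn T × (Pm) × (St T) × (List ℕ) × (ℕ) × (Arc) × (ℤ) =>
      ins0 p.1 p.2.1 p.2.2.1 p.2.2.2.1 p.2.2.2.2.1 p.2.2.2.2.2.1 p.2.2.2.2.2.2 := by
    unfold ins0; impl
  exact h.comp (f := fun a => (run a, P a, s a, C a, e a, A a, x a)) (hr.pair (hP.pair (hs.pair (hC.pair (he.pair (hA.pair (hx)))))))

@[fun_prop] theorem implC_chk {P : α → Pm} {u : α → St T × List ℕ}
    (hr : Pu true run) (hP : Pu true P) (hu : Pu true u) :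
    Impl fun a => chk (run a) (P a) (u a) := by
  have h : Impl fun p : Rn T × (Pm) × (St T × List ℕ) =>
      chk p.1 p.2.1 p.2.2 := by
    unfold chk; impl
  exact h.comp (f := fun a => (run a, P a, u a)) (hr.pair (hP.pair (hu)))

@[fun_prop] theorem implC_proc {P : α → Pm} {u : α → St T × List ℕ}
    (hr : Pu true run) (hP : Pu true P) (hu : Pu true u) :
    Impl fun a => proc (run a) (P a) (u a) := by
  have h : Impl fun p : Rn T × (Pm) × (St T × List ℕ) =>
      proc p.1 p.2.1 p.2.2 := by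
    unfold proc; impl
  exact h.comp (f := fun a => (run a, P a, u a)) (hr.pair (hP.pair (hu)))

@[fun_prop] theorem implC_init {t : α → T}
    (hr : Pu true run) (ht : Pu true t) :
    Impl fun a => init (run a) (t a) := by
  have h : Impl fun p : Rn T × (T) =>
      init p.1 p.2 := by
    unfold init; impl
  exact h.comp (f := fun a => (run a, t a)) (hr.pair (ht))

@[fun_prop] theorem implC_ins {P : α → Pm} {s : α → St T} {e : α → ℕ} {A : α → Arc} {x : α → ℤ}
    (hr : Pu true run) (hP : Pu true P) (hs : Pu true s) (he : Pu true e) (hA : Pu true A) (hx : Pu true x) :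
    Impl fun a => ins (run a) (P a) (s a) (e a) (A a) (x a) := by
  have h : Impl fun p : Rn T × (Pm) × (St T) × (ℕ) × (Arc) × (ℤ) =>
      ins p.1 p.2.1 p.2.2.1 p.2.2.2.1 p.2.2.2.2.1 p.2.2.2.2.2 := by
    unfold ins; impl
  exact h.comp (f := fun a => (run a, P a, s a, e a, A a, x a)) (hr.pair (hP.pair (hs.pair (he.pair (hA.pair (hx))))))

@[fun_prop] theorem implC_del {P : α → Pm} {s : α → St T} {e : α → ℕ}
    (hr : Pu true run) (hP : Pu true P) (hs : Pu true s) (he : Pu true e) :
    Impl fun a => del (run a) (P a) (s a) (e a) := by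
  have h : Impl fun p : Rn T × (Pm) × (St T) × (ℕ) =>
      del p.1 p.2.1 p.2.2.1 p.2.2.2 := by
    unfold del; impl
  exact h.comp (f := fun a => (run a, P a, s a, e a)) (hr.pair (hP.pair (hs.pair (he))))

@[fun_prop] theorem implC_get {P : α → Pm} {s : α → St T} {e : α → ℕ}
    (hr : Pu true run) (hP : Pu true P) (hs : Pu true s) (he : Pu true e) :
    Impl fun a => get (run a) (P a) (s a) (e a) := by
  have h : Impl fun p : Rn T × (Pm) × (St T) × (ℕ) =>
      get p.1 p.2.1 p.2.2.1 p.2.2.2 := by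
    unfold get; impl
  exact h.comp (f := fun a => (run a, P a, s a, e a)) (hr.pair (hP.pair (hs.pair (he))))

@[fun_prop] theorem implC_step1 {P : α → Pm} {u : α → St T × Bool}
    (hr : Pu true run) (hP : Pu true P) (hu : Pu true u) :
    Impl fun a => step1 (run a) (P a) (u a) := by
  have h : Impl fun p : Rn T × (Pm) × (St T × Bool) =>
      step1 p.1 p.2.1 p.2.2 := by
    unfold step1; impl
  exact h.comp (f := fun a => (run a, P a, u a)) (hr.pair (hP.pair (hu)))

@[fun_prop] theorem implC_qui {P : α → Pm} {s : α → St T}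
    (hr : Pu true run) (hP : Pu true P) (hs : Pu true s) :
    Impl fun a => qui (run a) (P a) (s a) := by
  have h : Impl fun p : Rn T × (Pm) × (St T) =>
      qui p.1 p.2.1 p.2.2 := by
    unfold qui; impl
  exact h.comp (f := fun a => (run a, P a, s a)) (hr.pair (hP.pair (hs)))

end Crest.Agent.N325.Ip

namespace Crest.Agent.N325.Op

open Crest.Agent.N325.Ip Crest.Agent.N325.Tw

variable {α T : Type} [Rp α] [Rp T] {run : α → Cmd × T → R (T × Rep × Bool)}

@[fun_prop] theorem implC_op1 {P : α → Pm} {o : α → Ox} {s : α → St T}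
    (hr : Pu true run) (hP : Pu true P) (ho : Pu true o) (hs : Pu true s) :
    Impl fun a => op1 (run a) (P a) (o a) (s a) := by
  have h : Impl fun p : Rn T × (Pm) × (Ox) × (St T) =>
      op1 p.1 p.2.1 p.2.2.1 p.2.2.2 := by
    unfold op1 opD; impl
  exact h.comp (f := fun a => (run a, P a, o a, s a)) (hr.pair (hP.pair (ho.pair (hs))))

@[fun_prop] theorem implC_ops {P : α → Pm} {l : α → List Ox} {s : α → St T}
    (hr : Pu true run) (hP : Pu true P) (hl : Pu true l) (hs : Pu true s) :
    Impl fun a => ops (run a) (P a) (l a) (s a) := by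
  have h : Impl fun p : Rn T × (Pm) × (List Ox) × (St T) =>
      ops p.1 p.2.1 p.2.2.1 p.2.2.2 := by
    unfold ops; impl
  exact h.comp (f := fun a => (run a, P a, l a, s a)) (hr.pair (hP.pair (hl.pair (hs))))

@[fun_prop] theorem implC_mv {P : α → Pm} {o : α → ℕ × ℤ} {s : α → St T}
    (hr : Pu true run) (hP : Pu true P) (ho : Pu true o) (hs : Pu true s) :
    Impl fun a => mv (run a) (P a) (o a) (s a) := by
  have h : Impl fun p : Rn T × (Pm) × (ℕ × ℤ) × (St T) =>
      mv p.1 p.2.1 p.2.2.1 p.2.2.2 := by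
    unfold mv; impl
  exact h.comp (f := fun a => (run a, P a, o a, s a)) (hr.pair (hP.pair (ho.pair (hs))))

@[fun_prop] theorem implC_mvs {P : α → Pm} {l : α → List (ℕ × ℤ)} {s : α → St T}
    (hr : Pu true run) (hP : Pu true P) (hl : Pu true l) (hs : Pu true s) :
    Impl fun a => mvs (run a) (P a) (l a) (s a) := by
  have h : Impl fun p : Rn T × (Pm) × (List (ℕ × ℤ)) × (St T) =>
      mvs p.1 p.2.1 p.2.2.1 p.2.2.2 := by
    unfold mvs; impl
  exact h.comp (f := fun a => (run a, P a, l a, s a)) (hr.pair (hP.pair (hl.pair (hs))))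

@[fun_prop] theorem implC_gets {P : α → Pm} {l : α → List ℕ} {u : α → St T × Arr ℤ}
    (hr : Pu true run) (hP : Pu true P) (hl : Pu true l) (hu : Pu true u) :
    Impl fun a => gets (run a) (P a) (l a) (u a) := by
  have h : Impl fun p : Rn T × (Pm) × (List ℕ) × (St T × Arr ℤ) =>
      gets p.1 p.2.1 p.2.2.1 p.2.2.2 := by
    unfold gets get1; impl
  exact h.comp (f := fun a => (run a, P a, l a, u a)) (hr.pair (hP.pair (hl.pair (hu))))

theorem implC_grd {P : α → Pm} (hr : Pu true run) (hP : Pu true P)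
    {h : α → ℕ → Bool} {L : α → List ℕ} {u : α → St T × Arr ℤ}
    (hh : Pu false fun p : α × ℕ => h p.1 p.2) (hL : Pu true L) (hu : Pu true u) :
    Impl fun a => grd (run a) (P a) (h a) (L a) (u a) :=
  Impl.bind (by impl) (implC_gets (hr.comp Pu.fst') (hP.comp Pu.fst') Pu.snd' (hu.comp Pu.fst'))

theorem implC_gap {P : α → Pm} (hr : Pu true run) (hP : Pu true P)
    {h h2 : α → ℕ → Bool} {ar : α → ℕ → Arc} {x : α → Arr ℤ} {L : α → List ℕ} {u : α → St T}
    (hh : Pu false fun p : α × ℕ => h p.1 p.2) (hh2 : Pu false fun p : α × ℕ => h2 p.1 p.2)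
    (ha : Pu false fun p : α × ℕ => ar p.1 p.2) (hx : Pu true x) (hL : Pu true L)
    (hu : Pu true u) : Impl fun a => gap (run a) (P a) (h a) (h2 a) (ar a) (x a) (L a) (u a) := by
  have hk := impl_oxR hh hh2 ha hx
  obtain ⟨k, e⟩ : ∃ k : α → ℕ → R Ox, ∀ a, oxR (h a) (h2 a) (ar a) (x a) = k a :=
    ⟨_, fun _ => rfl⟩
  unfold gap; simp only [e] at hk ⊢
  exact Impl.bind (by impl) (Impl.bind (by impl) (implC_ops ((hr.comp Pu.fst').comp Pu.fst')
    ((hP.comp Pu.fst').comp Pu.fst') Pu.snd' ((hu.comp Pu.fst').comp Pu.fst')))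

end Crest.Agent.N325.Op
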