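import Crest.Agent.N325.Op.Prog
import Crest.Agent.N325.Ip.Impl

/-!
# Row 325 (helper19): implementations of the surgery programs
-/

set_option autoImplicit false

namespace Crest.Agent.N325.Op

open Crest.Agent.N325.Ip Crest.Agent.N325.Tw

variable {α T : Type} [Rp α] [Rp T] {run : α → Cmd × T → R (T × Rep × Bool)} {P : α → Pm}

@[fun_prop] theorem impl_op1 (hr : Impl fun p : α × Cmd × T => run p.1 p.2) (hP : Pu true P)
    {o : α → Ox} {s : α → St T} (ho : Pu true o) (hs : Pu true s) :
    Impl fun a => op1 (run a) (P a) (o a) (s a) := by impl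
@[fun_prop] theorem impl_ops (hr : Impl fun p : α × Cmd × T => run p.1 p.2) (hP : Pu true P)
    {l : α → List Ox} {s : α → St T} (hl : Pu true l) (hs : Pu true s) :
    Impl fun a => ops (run a) (P a) (l a) (s a) := by impl
@[fun_prop] theorem impl_mv (hr : Impl fun p : α × Cmd × T => run p.1 p.2) (hP : Pu true P)
    {o : α → ℕ × ℤ} {s : α → St T} (ho : Pu true o) (hs : Pu true s) :
    Impl fun a => mv (run a) (P a) (o a) (s a) := by impl
@[fun_prop] theorem impl_mvs (hr : Impl fun p : α × Cmd × T => run p.1 p.2) (hP : Pu true P)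
    {l : α → List (ℕ × ℤ)} {s : α → St T} (hl : Pu true l) (hs : Pu true s) :
    Impl fun a => mvs (run a) (P a) (l a) (s a) := by impl
@[fun_prop] theorem impl_gets (hr : Impl fun p : α × Cmd × T => run p.1 p.2) (hP : Pu true P)
    {l : α → List ℕ} {u : α → St T × Arr ℤ} (hl : Pu true l) (hu : Pu true u) :
    Impl fun a => gets (run a) (P a) (l a) (u a) := by impl

end Crest.Agent.N325.Op
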