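import Crest.Agent.N325.Ip.Defs

/-!
# Row 325 (helper19): surgery on the ghost network — operations, divergence, potential
-/

set_option autoImplicit false
open Finset

namespace Crest.Agent.N325.Op

open Crest.Agent.N325.Ip

/-- an operation: id, present now, new arc and flow (or deletion) -/
abbrev Ox := ℕ × Bool × Option (Arc × ℤ)

/-- the network after one operation -/
def app (N : Net) (o : Ox) : Net :=
  Option.casesOn o.2.2 (N.del o.1) fun u => (N.del o.1).ins o.1 u.1 u.2
/-- the network after a list of operations -/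
def apps (N : Net) (l : List Ox) : Net := l.foldl app N

/-- the operation is admissible -/
def Ok (B : Bn) (N : Net) (o : Ox) : Prop :=
  (o.2.1 = true ↔ o.1 ∈ N.E) ∧ ∀ u, o.2.2 = some u → B.arc o.1 u.1 ∧ Dom B u.1 u.2
/-- the operations are admissible, one after the other -/
def Oks (B : Bn) : Net → List Ox → Prop
  | _, [] => True
  | N, o :: l => Ok B N o ∧ Oks B (app N o) l

/-- same arc, flow moved by `d` -/
def mvN (N : Net) (e : ℕ) (d : ℤ) : Net := (N.del e).ins e (N.arc e) (N.X e + d)

variable {N : Net} {e e' v : ℕ} {A : Arc} {x d : ℤ} {P : Pm} {B : Bn}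

@[simp] theorem apps_nil : apps N [] = N := rfl
@[simp] theorem apps_cons (o : Ox) (l : List Ox) : apps N (o :: l) = apps (app N o) l := rfl
theorem apps_append (l l' : List Ox) : apps N (l ++ l') = apps (apps N l) l' := List.foldl_append
@[simp] theorem app_none (b : Bool) : app N (e, b, none) = N.del e := rfl
@[simp] theorem app_some (b : Bool) : app N (e, b, some (A, x)) = (N.del e).ins e A x := rfl
theorem oks_append {l l' : List Ox} : Oks B N (l ++ l') ↔ Oks B N l ∧ Oks B (apps N l) l' := by
  induction l generalizing N with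
  | nil => simp [Oks]
  | cons o l ih => simp [Oks, ih, and_assoc]

@[simp] theorem del_E : (N.del e).E = N.E.erase e := rfl
@[simp] theorem del_arc : (N.del e).arc = N.arc := rfl
@[simp] theorem del_X : (N.del e).X = N.X := rfl
@[simp] theorem ins_E : (N.ins e A x).E = insert e N.E := rfl
@[simp] theorem ins_arc : (N.ins e A x).arc = Function.update N.arc e A := rfl
@[simp] theorem ins_X : (N.ins e A x).X = Function.update N.X e x := rfl
@[simp] theorem add_E (c : ℕ → ℤ) : (N.add c).E = N.E := rfl
@[simp] theorem add_arc (c : ℕ → ℤ) : (N.add c).arc = N.arc := rfl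
@[simp] theorem add_X (c : ℕ → ℤ) : (N.add c).X e = N.X e + c e := rfl
theorem del_of_notMem (h : e ∉ N.E) : N.del e = N := by
  cases N; simp only [Net.del, erase_eq_of_notMem h]
theorem mvN_E (h : e ∈ N.E) : (mvN N e d).E = N.E := insert_erase h
@[simp] theorem mvN_arc : (mvN N e d).arc = N.arc := Function.update_eq_self ..
@[simp] theorem mvN_X : (mvN N e d).X = Function.update N.X e (N.X e + d) := rfl

theorem mem_app {o : Ox} : e ∈ (app N o).E ↔ (e ≠ o.1 ∧ e ∈ N.E) ∨ (e = o.1 ∧ o.2.2 ≠ none) := by
  obtain ⟨i, b, _ | ⟨A, x⟩⟩ := o <;> simp [or_comm]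
theorem app_ne {o : Ox} (h : e ≠ o.1) : (e ∈ (app N o).E ↔ e ∈ N.E) ∧
    (app N o).arc e = N.arc e ∧ (app N o).X e = N.X e := by
  obtain ⟨i, b, _ | ⟨A, x⟩⟩ := o <;> simp_all
/-- ids that are not touched -/
theorem apps_ne {l : List Ox} (h : e ∉ l.map Prod.fst) : (e ∈ (apps N l).E ↔ e ∈ N.E) ∧
    (apps N l).arc e = N.arc e ∧ (apps N l).X e = N.X e := by
  induction l generalizing N with
  | nil => simp
  | cons o l ih =>
    simp only [List.map_cons, List.mem_cons, not_or] at h
    obtain ⟨a, b, c⟩ := ih (N := app N o) h.2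
    obtain ⟨a', b', c'⟩ := app_ne (N := N) h.1
    exact ⟨a.trans a', b.trans b', c.trans c'⟩
/-- the effect of an operation of a list with distinct ids -/
theorem apps_mem {l : List Ox} (h : (l.map Prod.fst).Nodup) {o : Ox} (ho : o ∈ l) :
    (o.1 ∈ (apps N l).E ↔ o.2.2 ≠ none) ∧
      ∀ u, o.2.2 = some u → (apps N l).arc o.1 = u.1 ∧ (apps N l).X o.1 = u.2 := by
  induction l generalizing N with
  | nil => cases ho
  | cons p l ih =>
    simp only [List.map_cons, List.nodup_cons] at h
    rcases List.mem_cons.1 ho with rfl | k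
    · obtain ⟨a, b, c⟩ := apps_ne (N := app N o) h.1
      rw [apps_cons, a, b, c]
      obtain ⟨i, t, _ | ⟨A, x⟩⟩ := o <;> simp
    · exact ih h.2 k
/-- admissibility of a list with distinct ids -/
theorem oks_of_nodup {l : List Ox} (h : (l.map Prod.fst).Nodup) (k : ∀ o ∈ l, Ok B N o) :
    Oks B N l := by
  induction l generalizing N with
  | nil => trivial
  | cons p l ih =>
    simp only [List.map_cons, List.nodup_cons] at h
    refine ⟨k p List.mem_cons_self, ih h.2 fun o ho => ?_⟩
    have ne : o.1 ≠ p.1 := fun c => h.1 (c ▸ List.mem_map_of_mem ho)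
    have := k o (List.mem_cons_of_mem _ ho)
    exact ⟨this.1.trans (app_ne ne).1.symm, this.2⟩

/-! ## sums over the arcs -/

section sums
variable {M : Type} [AddCommGroup M] (f : Arc → ℤ → M)

/-- the sum of `f` over the arcs -/
def tot (N : Net) : M := ∑ e ∈ N.E, f (N.arc e) (N.X e)
/-- the old value -/
def old (N : Net) (e : ℕ) : M := if e ∈ N.E then f (N.arc e) (N.X e) else 0
/-- the new value -/
def nw (o : Ox) : M := Option.casesOn o.2.2 0 fun u => f u.1 u.2

@[simp] theorem nw_none (b : Bool) : nw f (e, b, none) = 0 := rfl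
@[simp] theorem nw_some (b : Bool) : nw f (e, b, some (A, x)) = f A x := rfl
theorem old_mem (h : e ∈ N.E) : old f N e = f (N.arc e) (N.X e) := if_pos h
theorem old_notMem (h : e ∉ N.E) : old f N e = 0 := if_neg h

theorem tot_ins (h : e ∉ N.E) : tot f (N.ins e A x) = tot f N + f A x := by
  simp only [tot, ins_E, ins_arc, ins_X, sum_insert h, Function.update_self]
  rw [add_comm]
  congr 1
  exact sum_congr rfl fun i hi => by
    have : i ≠ e := fun c => h (c ▸ hi)
    rw [Function.update_of_ne this, Function.update_of_ne this]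
theorem tot_del (N : Net) (e : ℕ) : tot f (N.del e) = tot f N - old f N e := by
  by_cases h : e ∈ N.E
  · rw [old_mem f h, eq_sub_iff_add_eq]; exact sum_erase_add _ _ h
  · rw [old_notMem f h, del_of_notMem h, sub_zero]
theorem tot_app (N : Net) (o : Ox) : tot f (app N o) = tot f N - old f N o.1 + nw f o := by
  obtain ⟨i, b, _ | ⟨A, x⟩⟩ := o
  · simp [tot_del]
  · rw [app_some, tot_ins f (by simp), tot_del]; rfl
theorem tot_mvN (h : e ∈ N.E) : tot f (mvN N e d) =
    tot f N - f (N.arc e) (N.X e) + f (N.arc e) (N.X e + d) := by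
  rw [mvN, tot_ins f (by simp), tot_del, old_mem f h]
theorem tot_apps {l : List Ox} (h : (l.map Prod.fst).Nodup) (N : Net) :
    tot f (apps N l) = tot f N + (l.map fun o => nw f o - old f N o.1).sum := by
  induction l generalizing N with
  | nil => simp
  | cons p l ih =>
    simp only [List.map_cons, List.nodup_cons] at h
    rw [apps_cons, ih h.2, tot_app, List.map_cons, List.sum_cons]
    have : (l.map fun o => nw f o - old f (app N p) o.1) = l.map fun o => nw f o - old f N o.1 :=
      List.map_congr_left fun o ho => by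
        have ne : o.1 ≠ p.1 := fun c => h.1 (c ▸ List.mem_map_of_mem ho)
        obtain ⟨a, b, c⟩ := app_ne (N := N) ne
        simp only [old, a, b, c]
    rw [this]; abel
end sums

theorem pot_eq (N : Net) : pot P B N = tot (bar P B) N := rfl
theorem pot_ins (h : e ∉ N.E) : pot P B (N.ins e A x) = pot P B N + bar P B A x := tot_ins _ h
theorem pot_del (h : e ∈ N.E) : pot P B (N.del e) = pot P B N - bar P B (N.arc e) (N.X e) := by
  rw [pot_eq, tot_del, old_mem _ h, pot_eq]
theorem pot_app (o : Ox) : pot P B (app N o) =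
    pot P B N - old (bar P B) N o.1 + nw (bar P B) o := tot_app _ N o
theorem pot_mvN (h : e ∈ N.E) : pot P B (mvN N e d) =
    pot P B N - bar P B (N.arc e) (N.X e) + bar P B (N.arc e) (N.X e + d) := tot_mvN _ h
theorem pot_apps {l : List Ox} (h : (l.map Prod.fst).Nodup) : pot P B (apps N l) =
    pot P B N + (l.map fun o => nw (bar P B) o - old (bar P B) N o.1).sum := tot_apps _ h N

/-! ## divergence -/

/-- contribution of an arc to the divergence at `v` -/
def ct (v : ℕ) (A : Arc) (x : ℤ) : ℤ := (if A.b = v then x else 0) - if A.a = v then x else 0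
/-- inflow minus outflow -/
def dv (N : Net) (v : ℕ) : ℤ := tot (ct v) N
/-- inflow -/
def inf (N : Net) (v : ℕ) : ℤ := ∑ e ∈ N.E with (N.arc e).b = v, N.X e
/-- outflow -/
def ouf (N : Net) (v : ℕ) : ℤ := ∑ e ∈ N.E with (N.arc e).a = v, N.X e
/-- conservation away from the ground -/
def Cons (N : Net) : Prop := ∀ v, v ≠ 0 → dv N v = 0

theorem dv_eq (N : Net) (v : ℕ) : dv N v = inf N v - ouf N v := by
  simp only [dv, tot, ct, inf, ouf, sum_filter, sum_sub_distrib]
theorem dv_ins (h : e ∉ N.E) : dv (N.ins e A x) v = dv N v + ct v A x := tot_ins _ h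
theorem dv_del (h : e ∈ N.E) : dv (N.del e) v = dv N v - ct v (N.arc e) (N.X e) := by
  rw [dv, tot_del, old_mem _ h, dv]
theorem dv_app (o : Ox) : dv (app N o) v = dv N v - old (ct v) N o.1 + nw (ct v) o :=
  tot_app _ N o
theorem ct_add (x d : ℤ) : ct v A (x + d) = ct v A x + ct v A d := by
  unfold ct; split_ifs <;> ring
theorem dv_mvN (h : e ∈ N.E) : dv (mvN N e d) v = dv N v + ct v (N.arc e) d := by
  rw [dv, tot_mvN _ h, ct_add, dv]; ring
theorem dv_apps {l : List Ox} (h : (l.map Prod.fst).Nodup) : dv (apps N l) v =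
    dv N v + (l.map fun o => nw (ct v) o - old (ct v) N o.1).sum := tot_apps _ h N

theorem ct_eq (x : ℤ) : ct v A x =
    x * ((if A.b = v then 1 else 0) - if A.a = v then 1 else 0) := by
  unfold ct; split_ifs <;> ring
theorem dv_add {c : ℕ → ℤ} (h : N.Circ c) (v : ℕ) : dv (N.add c) v = dv N v := by
  have := h fun u => if u = v then 1 else 0
  simp only [dv, tot, add_E, add_arc, add_X, ct_add, sum_add_distrib]
  rw [add_eq_left, ← this]
  exact sum_congr rfl fun i _ => ct_eq _
theorem Cons.add {c : ℕ → ℤ} (h : Cons N) (k : N.Circ c) : Cons (N.add c) :=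
  fun v hv => (dv_add k v).trans (h v hv)

/-- summation by parts -/
theorem sum_dv {K : Type} [CommRing K] (N : Net) (z : ℕ → K) {V : Finset ℕ}
    (hV : ∀ e ∈ N.E, (N.arc e).a ∈ V ∧ (N.arc e).b ∈ V) :
    ∑ e ∈ N.E, (N.X e : K) * (z (N.arc e).b - z (N.arc e).a) = ∑ v ∈ V, z v * (dv N v : K) := by
  simp only [dv, tot, Int.cast_sum, mul_sum]
  rw [sum_comm]
  refine sum_congr rfl fun e he => ?_
  simp only [ct, Int.cast_sub, Int.cast_ite, Int.cast_zero, mul_sub, mul_ite, mul_zero,
    sum_sub_distrib, sum_ite_eq, (hV e he).1, (hV e he).2, if_true]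
  ring
/-- a conserved flow pairs to zero with every potential -/
theorem Cons.pair {K : Type} [CommRing K] (h : Cons N) (z : ℕ → K) :
    ∑ e ∈ N.E, (N.X e : K) * (z (N.arc e).b - z (N.arc e).a) = 0 := by
  have hV : ∀ e ∈ N.E, (N.arc e).a ∈ N.E.image (fun e => (N.arc e).a) ∪
      N.E.image (fun e => (N.arc e).b) ∧ (N.arc e).b ∈ N.E.image (fun e => (N.arc e).a) ∪
      N.E.image (fun e => (N.arc e).b) := fun e he =>
    ⟨mem_union_left _ (mem_image_of_mem _ he), mem_union_right _ (mem_image_of_mem _ he)⟩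
  have := sum_dv N (fun v => z v - z 0) hV
  simp only [sub_sub_sub_cancel_right] at this
  rw [this]
  refine sum_eq_zero fun v _ => ?_
  by_cases k : v = 0
  · simp [k]
  · simp [h v k]
theorem Cons.circ (h : Cons N) : N.Circ N.X := fun z => by simpa using h.pair z
theorem cons_of_circ (h : N.Circ N.X) : Cons N := fun v _ => by
  rw [← h fun u => if u = v then 1 else 0]
  exact sum_congr rfl fun i _ => ct_eq _
theorem cons_emp : Cons Net.emp := fun _ _ => rfl
/-- the flow into a set of vertices equals the flow out of it -/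
theorem Cons.cut (h : Cons N) (S : Finset ℕ) :
    ∑ e ∈ N.E with (N.arc e).b ∈ S ∧ (N.arc e).a ∉ S, N.X e =
      ∑ e ∈ N.E with (N.arc e).a ∈ S ∧ (N.arc e).b ∉ S, N.X e := by
  have := h.pair (K := ℤ) fun u => if u ∈ S then 1 else 0
  rw [sum_filter, sum_filter, ← sub_eq_zero, ← sum_sub_distrib]
  refine Eq.trans (sum_congr rfl fun e _ => ?_) this
  by_cases a : (N.arc e).a ∈ S <;> by_cases b : (N.arc e).b ∈ S <;> simp [a, b]

end Crest.Agent.N325.Op
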